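import Vale.Agent.P250.Full.Weight.Cell
import Mathlib.Analysis.SpecialFunctions.Complex.LogBounds

/-!
The weight: convergence of the layers, smoothness, and its Levi form.
-/

namespace Vale.Agent.P250.Full.Weight

open Complex Filter Set
open scoped ComplexConjugate Topology ContDiff

variable {ρ D t : ℝ}

theorem tl_pos (D : ℝ) (n : ℕ) : 0 < tl D n := Real.exp_pos _

theorem tl_le_tl (hD : 0 ≤ D) {m n : ℕ} (h : m ≤ n) : tl D n ≤ tl D m :=
  Real.exp_le_exp.2 (neg_le_neg (mul_le_mul_of_nonneg_right (Nat.cast_le.2 h) hD))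

theorem tl_le (hD : 7 ≤ D) (n : ℕ) : tl D (n + 1) ≤ 1 / 1000 := by
  refine (tl_le_tl (by linarith) (show 1 ≤ n + 1 by omega)).trans ?_
  have h1 : (1000 : ℝ) ≤ Real.exp 7 := by
    rw [show (7 : ℝ) = ((7 : ℕ) : ℝ) * 1 by norm_num, Real.exp_nat_mul]
    exact le_trans (by norm_num) (pow_le_pow_left₀ (by norm_num) Real.exp_one_gt_d9.le 7)
  rw [tl, Nat.cast_one, one_mul, Real.exp_neg, one_div]
  exact inv_anti₀ (by norm_num) (h1.trans (Real.exp_le_exp.2 hD))

theorem tl_tendsto (hD : 0 < D) : Tendsto (tl D) atTop (𝓝 0) := by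
  have := (tendsto_natCast_atTop_atTop (R := ℝ)).atTop_mul_const hD
  exact Real.tendsto_exp_atBot.comp (tendsto_neg_atTop_atBot.comp this)

/-- The Taylor tail of `-log (1 - w)`. -/
noncomputable def tail (p : ℕ) (w : ℂ) : ℂ :=
  Complex.log (1 - w) + ∑ j ∈ Finset.range p, w ^ (j + 1) / (j + 1)

theorem norm_tail_le (p : ℕ) {w : ℂ} (hw : ‖w‖ ≤ 1 / 2) :
    ‖tail p w‖ ≤ 2 * ‖w‖ ^ (p + 1) := by
  have h := norm_log_sub_logTaylor_le p (z := -w) (by rw [norm_neg]; linarith)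
  have e : logTaylor (p + 1) (-w) = -∑ j ∈ Finset.range p, w ^ (j + 1) / (j + 1) := by
    rw [logTaylor, Finset.sum_range_succ', ← Finset.sum_neg_distrib]
    simp only [Nat.cast_zero, div_zero, add_zero]
    refine Finset.sum_congr rfl fun j _ => ?_
    rw [show ((-1 : ℂ)) ^ (j + 1 + 1) * (-w) ^ (j + 1) = -(w ^ (j + 1)) by
      rw [show (-w) = (-1) * w by ring, mul_pow, ← mul_assoc, ← pow_add,
        show (-1 : ℂ) ^ (j + 1 + 1 + (j + 1)) = -1 from Odd.neg_one_pow ⟨j + 1, by ring⟩]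
      ring]
    push_cast
    ring
  rw [e, norm_neg, ← sub_eq_add_neg, sub_neg_eq_add] at h
  have h2 : (1 - ‖w‖)⁻¹ ≤ 2 :=
    (inv_anti₀ (by norm_num) (show (1 / 2 : ℝ) ≤ 1 - ‖w‖ by linarith)).trans (by norm_num)
  have h3 : 0 ≤ (1 - ‖w‖)⁻¹ := inv_nonneg.2 (by linarith)
  calc ‖tail p w‖ ≤ ‖w‖ ^ (p + 1) * (1 - ‖w‖)⁻¹ / (p + 1) := h
    _ ≤ ‖w‖ ^ (p + 1) * (1 - ‖w‖)⁻¹ :=
        div_le_self (mul_nonneg (by positivity) h3) (by linarith [Nat.cast_nonneg (α := ℝ) p])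
    _ ≤ ‖w‖ ^ (p + 1) * 2 := mul_le_mul_of_nonneg_left h2 (by positivity)
    _ = 2 * ‖w‖ ^ (p + 1) := mul_comm _ _

theorem differentiableAt_tail (p : ℕ) {w : ℂ} (hw : ‖w‖ < 1) : DifferentiableAt ℂ (tail p) w := by
  refine DifferentiableAt.fun_add (DifferentiableAt.clog (by fun_prop) ?_) (by fun_prop)
  exact Or.inl (by simp; linarith [re_le_norm w])

/-- Half of a cell, holomorphically, away from its depth. -/
noncomputable def cl (D : ℝ) (n : ℕ) (e z : Fin 2 → ℂ) : ℂ := tail 4 (vc (tl D n) (ip z e))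

/-- Half of the tail of the weight beyond layer `M`. -/
noncomputable def tl2 (D : ℝ) (M : ℕ) (z : Fin 2 → ℂ) : ℂ :=
  ∑' n : ℕ, ∑ e ∈ net (tl D (n + M + 1)), cl D (n + M + 1) e z

/-- The region seen by the first `M` layers only. -/
def reg (D : ℝ) (M : ℕ) : Set (Fin 2 → ℂ) := {z | nsq z < 1 - 49 * tl D (M + 1)}

theorem isOpen_reg (D : ℝ) (M : ℕ) : IsOpen (reg D M) := isOpen_lt continuous_nsq continuous_const

theorem reg_subset (D : ℝ) (M : ℕ) : reg D M ⊆ ball2 := fun z hz => by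
  have := tl_pos D (M + 1)
  exact show nsq z < 1 from lt_of_lt_of_le hz (by linarith)

theorem norm_vc_le (ht : 0 < t) (ht1 : t < 1) {e z : Fin 2 → ℂ} (hz : nsq z < 1) (he : e ∈ sph) :
    ‖vc t (ip z e)‖ ≤ 8 * t / (1 - nsq z) := by
  have hs := norm_ip_le_one hz.le he
  have h := norm_ip_sq_le z e
  rw [show nsq e = 1 from he, mul_one] at h
  have h1 := norm_sub_norm_le (1 : ℂ) ((av t : ℂ) * ip z e)
  rw [norm_one, norm_mul, norm_real, Real.norm_eq_abs, abs_of_pos (av_pos ht ht1)] at h1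
  have ha := le_one_sub_av ht ht1.le
  have hden : (1 - nsq z) / 2 ≤ ‖1 - (av t : ℂ) * ip z e‖ := by
    nlinarith [norm_nonneg (ip z e), av_pos ht ht1]
  rw [vc, norm_div, ← ofReal_one, ← ofReal_pow, ← ofReal_sub, norm_real, Real.norm_eq_abs,
    ofReal_one, show 8 * t / (1 - nsq z) = 4 * t / ((1 - nsq z) / 2) by field_simp; ring]
  refine div_le_div₀ (by linarith) ?_ (by linarith) hden
  rw [abs_le]
  constructor <;> nlinarith [one_sub_av_le ht, av_pos ht ht1]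

theorem vc_small (hD : 7 ≤ D) {M n : ℕ} (hn : M + 1 ≤ n) {e z : Fin 2 → ℂ} (he : e ∈ sph)
    (hz : z ∈ reg D M) : ‖vc (tl D n) (ip z e)‖ ≤ 8 / 49 := by
  have ht : tl D n ≤ tl D (M + 1) := tl_le_tl (by linarith) hn
  have hz1 : nsq z < 1 := reg_subset D M hz
  have hz' : nsq z < 1 - 49 * tl D (M + 1) := hz
  refine (norm_vc_le (tl_pos D n) (by linarith [tl_le hD M]) hz1 he).trans ?_
  rw [div_le_iff₀ (by linarith)]
  linarith

theorem exists_bound (hL : LayerSumStmt) (hD : 7 ≤ D) : ∃ C : ℝ, ∀ (M n : ℕ), ∀ z ∈ reg D M,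
    ‖∑ e ∈ net (tl D (n + M + 1)), cl D (n + M + 1) e z‖ ≤ C * Real.exp (-D) ^ n := by
  obtain ⟨C, hC, hCs⟩ := hL
  refine ⟨2 * C, fun M n z hz => ?_⟩
  set T := tl D (M + 1) with hT
  have hT0 : 0 < T := tl_pos D _
  have hz1 : nsq z < 1 := reg_subset D M hz
  have hz' : nsq z < 1 - 49 * T := hz
  have hm : tl D (n + M + 1) = T * Real.exp (-D) ^ n := by
    rw [hT, tl, tl, ← Real.exp_nat_mul, ← Real.exp_add]
    push_cast
    ring_nf
  have ht : tl D (n + M + 1) ≤ 1 / 1000 := tl_le hD (n + M)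
  have ht0 : 0 < tl D (n + M + 1) := tl_pos D _
  refine (norm_sum_le_of_le _ (n := fun e => 2 * ‖vc (tl D (n + M + 1)) (ip z e)‖ ^ 5)
    fun e he => ?_).trans ?_
  · exact norm_tail_le 4 ((vc_small hD (by omega) (net_spec.1 e he) hz).trans (by norm_num))
  rw [← Finset.mul_sum]
  have hq0 : 0 ≤ Real.exp (-D) ^ n := by positivity
  have hq1 : Real.exp (-D) ^ n ≤ 1 :=
    pow_le_one₀ (Real.exp_nonneg _) (Real.exp_le_one_iff.2 (by linarith))
  have hr : tl D (n + M + 1) / (1 - nsq z) ≤ Real.exp (-D) ^ n := by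
    rw [hm, div_le_iff₀ (by linarith)]
    nlinarith
  have hr0 : 0 ≤ tl D (n + M + 1) / (1 - nsq z) := div_nonneg ht0.le (by linarith)
  calc 2 * ∑ e ∈ net (tl D (n + M + 1)), ‖vc (tl D (n + M + 1)) (ip z e)‖ ^ 5
      ≤ 2 * (C * (tl D (n + M + 1) / (1 - nsq z)) ^ 3) := by
        have := (hCs _ ht0 ht z hz1).2
        linarith
    _ ≤ 2 * (C * Real.exp (-D) ^ n) := by
        refine mul_le_mul_of_nonneg_left (mul_le_mul_of_nonneg_left ?_ hC.le) (by norm_num)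
        exact (pow_le_pow_left₀ hr0 hr 3).trans (pow_le_of_le_one hq0 hq1 (by norm_num))
    _ = 2 * C * Real.exp (-D) ^ n := (mul_assoc _ _ _).symm

theorem summable_exp (hD : 7 ≤ D) (C : ℝ) : Summable fun n : ℕ => C * Real.exp (-D) ^ n :=
  (summable_geometric_of_lt_one (Real.exp_nonneg _)
    (Real.exp_lt_one_iff.2 (by linarith))).mul_left _

theorem differentiable_ip_at (t : ℝ) (e : Fin 2 → ℂ) {z : Fin 2 → ℂ}
    (h : 1 - (av t : ℂ) * ip z e ≠ 0) : DifferentiableAt ℂ (fun q => vc t (ip q e)) z := by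
  have := differentiable_ip e z
  unfold vc
  simp only [div_eq_mul_inv]
  fun_prop (disch := exact h)

theorem differentiableOn_tl2 (hL : LayerSumStmt) (hD : 7 ≤ D) (M : ℕ) :
    DifferentiableOn ℂ (tl2 D M) (reg D M) := by
  obtain ⟨C, hC⟩ := exists_bound hL hD
  refine P274.differentiableOn_of_tendsto (isOpen_reg D M)
    (tendstoUniformlyOn_tsum_nat (summable_exp hD C)
      fun n z hz => hC M n z hz).tendstoLocallyUniformlyOn fun z hz => ?_
  obtain ⟨r, hr, hsub⟩ := Metric.isOpen_iff.1 (isOpen_reg D M) z hz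
  refine ⟨r, hr, Eventually.of_forall fun m => ?_⟩
  refine DifferentiableOn.fun_sum fun n _ => DifferentiableOn.fun_sum fun e he y hy => ?_
  have hy1 : nsq y < 1 := reg_subset D M (hsub hy)
  have he1 := net_spec.1 e he
  have h := vc_small hD (show M + 1 ≤ n + M + 1 by omega) he1 (hsub hy)
  exact ((differentiableAt_tail 4 (h.trans_lt (by norm_num))).comp (g := tail 4)
    (f := fun q => vc (tl D (n + M + 1)) (ip q e)) y (differentiable_ip_at _ e
      (den_ne_zero (tl_pos D _) (by linarith [tl_le hD (n + M)])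
        (norm_ip_le_one hy1.le he1)))).differentiableWithinAt

theorem cell_eq (hρ : 0 < ρ) (hρ1 : ρ ≤ 1 / 10) (hD : 7 ≤ D) {M n : ℕ} (hn : M + 1 ≤ n)
    {e z : Fin 2 → ℂ} (he : e ∈ sph) (hz : z ∈ reg D M) :
    cell ρ D n e z = 2 * (cl D n e z).re := by
  set t := tl D n with ht
  have ht0 : 0 < t := tl_pos D n
  have htT : t ≤ tl D (M + 1) := tl_le_tl (by linarith) hn
  have ht1 : t < 1 := by linarith [tl_le hD M]
  have hz1 : nsq z < 1 := reg_subset D M hz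
  have hfar := ip_far ht0 ht1 hz1 he (by
    have : nsq z < 1 - 49 * tl D (M + 1) := hz
    linarith)
  have hv := vc_small hD hn he hz
  rw [← ht] at hv
  have ha := av_pos ht0 ht1
  have hne : (1 : ℂ) - vc t (ip z e) ≠ 0 := fun h0 => by
    rw [← sub_eq_zero.1 h0, norm_one] at hv
    norm_num at hv
  have hden := den_ne_zero ht0 ht1 (norm_ip_le_one hz1.le he)
  have hρ2 : 3 * ρ ^ 2 / 4 ≤ 1 / 100 := by nlinarith
  have e1 : bc t (ip z e) = (1 - vc t (ip z e)) / (av t : ℂ) := by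
    have ha' : (av t : ℂ) ≠ 0 := ofReal_ne_zero.2 ha.ne'
    rw [bc, vc, eq_div_iff ha', div_mul_eq_mul_div, eq_sub_iff_add_eq, ← add_div,
      div_eq_iff hden]
    ring
  rw [cell, cell1, ← ht, prof_eq_log hρ (hρ2.trans hfar.le) (hρ2.trans (by norm_num)), e1,
    normSq_eq_norm_sq, Real.log_pow, norm_div, norm_real, Real.norm_eq_abs, abs_of_pos ha,
    Real.log_div (norm_ne_zero_iff.2 hne) ha.ne']
  simp only [cl, tail, ← ht, add_re, log_re]
  push_cast
  ring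

theorem hasSum_tail (hL : LayerSumStmt) (hρ : 0 < ρ) (hρ1 : ρ ≤ 1 / 10) (hD : 7 ≤ D) (M : ℕ)
    {z : Fin 2 → ℂ} (hz : z ∈ reg D M) :
    HasSum (fun n => ∑ e ∈ net (tl D (n + 1)), cell ρ D (n + 1) e z)
      ((2 * tl2 D M z).re + ∑ n ∈ Finset.range M, ∑ e ∈ net (tl D (n + 1)),
        cell ρ D (n + 1) e z) := by
  obtain ⟨C, hC⟩ := exists_bound hL hD
  have hs : Summable fun n => ∑ e ∈ net (tl D (n + M + 1)), cl D (n + M + 1) e z :=
    (summable_exp hD C).of_norm_bounded fun n => hC M n z hz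
  set g : ℕ → ℝ := fun n => ∑ e ∈ net (tl D (n + 1)), cell ρ D (n + 1) e z with hg
  have heq : ∀ n, g (n + M)
      = reCLM (2 * ∑ e ∈ net (tl D (n + M + 1)), cl D (n + M + 1) e z) := fun n => by
    rw [hg, reCLM_apply, Finset.mul_sum, re_sum]
    exact Finset.sum_congr rfl fun e he => by
      rw [cell_eq hρ hρ1 hD (by omega) (net_spec.1 e he) hz]; simp
  have hr : HasSum (fun n => g (n + M)) (reCLM (2 * tl2 D M z)) := by
    rw [funext heq]
    exact reCLM.hasSum (hs.hasSum.mul_left (2 : ℂ))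
  exact (hasSum_nat_add_iff (f := g) M).1 hr

theorem exists_reg (hD : 7 ≤ D) {z : Fin 2 → ℂ} (hz : z ∈ ball2) : ∃ M, z ∈ reg D M := by
  have hd : 0 < (1 - nsq z) / 49 := by
    have : nsq z < 1 := hz
    linarith
  obtain ⟨M, hM⟩ := (((tl_tendsto (by linarith : (0 : ℝ) < D)).comp
    (tendsto_add_atTop_nat 1)).eventually (Iio_mem_nhds hd)).exists
  have hM' : tl D (M + 1) < (1 - nsq z) / 49 := hM
  exact ⟨M, show nsq z < _ by linarith⟩

/-- The weight is the sum of its layers. -/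
theorem phiSum (hL : LayerSumStmt) : PhiSumStmt := fun _ _ hρ hρ1 hD _ hz => by
  obtain ⟨M, hM⟩ := exists_reg hD hz
  exact (hasSum_tail hL hρ hρ1 hD M hM).summable

theorem phi_eq (hL : LayerSumStmt) (hρ : 0 < ρ) (hρ1 : ρ ≤ 1 / 10) (hD : 7 ≤ D) (M : ℕ)
    {z : Fin 2 → ℂ} (hz : z ∈ reg D M) :
    phi ρ D z = (∑ n ∈ Finset.range M, ∑ e ∈ net (tl D (n + 1)), cell ρ D (n + 1) e z)
      + (2 * tl2 D M z).re :=
  (hasSum_tail hL hρ hρ1 hD M hz).tsum_eq.trans (add_comm _ _)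

/-- The pluriharmonic correction of a cell. -/
noncomputable def corr (t : ℝ) (s : ℂ) : ℂ :=
  2 * (∑ k ∈ Finset.range 4, vc t s ^ (k + 1) / (k + 1)) + ((2 * Real.log (av t) : ℝ) : ℂ)

theorem cell_eq_gam (ρ D : ℝ) (n : ℕ) (e : Fin 2 → ℂ) :
    cell ρ D n e = fun q => gam ρ (tl D n) e q + (corr (tl D n) (ip q e)).re := by
  funext q
  simp [cell, cell1, gam, corr]
  ring

theorem differentiableOn_corr (ht : 0 < t) (ht1 : t < 1) {e : Fin 2 → ℂ} (he : e ∈ sph) :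
    DifferentiableOn ℂ (fun q => corr t (ip q e)) ball2 := by
  intro z hz
  have hv := differentiable_ip_at t e (den_ne_zero ht ht1 (norm_ip_le_one (le_of_lt hz) he))
  refine DifferentiableAt.differentiableWithinAt ?_
  unfold corr
  simp only [div_eq_mul_inv]
  fun_prop

theorem contDiffOn_corr (hD : 7 ≤ D) {n : ℕ} {e : Fin 2 → ℂ} (he : e ∈ sph) :
    ContDiffOn ℝ ∞ (fun q => (corr (tl D (n + 1)) (ip q e)).re) ball2 :=
  reCLM.contDiff.comp_contDiffOn (contDiffOn_real isOpen_ball2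
    (differentiableOn_corr (tl_pos D _) (by linarith [tl_le hD n]) he))

theorem contDiffOn_cell (hρ : 0 < ρ) (hD : 7 ≤ D) {n : ℕ} {e : Fin 2 → ℂ} (he : e ∈ sph) :
    ContDiffOn ℝ ∞ (cell ρ D (n + 1) e) ball2 := by
  rw [cell_eq_gam]
  exact (contDiffOn_gam hρ (tl_pos D _) (by linarith [tl_le hD n]) he).add (contDiffOn_corr hD he)

theorem lev_cell (hρ : 0 < ρ) (hD : 7 ≤ D) {n : ℕ} {e z : Fin 2 → ℂ} (he : e ∈ sph)
    (hz : z ∈ ball2) (a b : Fin 2) :
    lev (cell ρ D (n + 1) e) a b z = lev (gam ρ (tl D (n + 1)) e) a b z := by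
  have ht1 : tl D (n + 1) < 1 := by linarith [tl_le hD n]
  rw [cell_eq_gam, Calc.lev_add (contDiffAt_gam hρ (tl_pos D _) ht1 he hz)
    (((contDiffOn_corr hD he).contDiffAt (isOpen_ball2.mem_nhds hz)).of_le
      (WithTop.coe_le_coe.2 le_top)),
    Calc.lev_re isOpen_ball2 (differentiableOn_corr (tl_pos D _) ht1 he) hz, add_zero]

theorem contDiffOn_phi_reg (hL : LayerSumStmt) (hρ : 0 < ρ) (hρ1 : ρ ≤ 1 / 10) (hD : 7 ≤ D)
    (M : ℕ) : ContDiffOn ℝ ∞ (phi ρ D) (reg D M) := by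
  refine ContDiffOn.congr ?_ fun z hz => phi_eq hL hρ hρ1 hD M hz
  refine ContDiffOn.add (ContDiffOn.sum fun n _ => ContDiffOn.sum fun e he =>
    (contDiffOn_cell hρ hD (net_spec.1 e he)).mono (reg_subset D M)) ?_
  exact reCLM.contDiff.comp_contDiffOn
    (contDiffOn_real (isOpen_reg D M) ((differentiableOn_tl2 hL hD M).const_mul 2))

/-- Smoothness of the weight; near any point all but finitely many layers are pluriharmonic. -/
theorem phi_spec (hL : LayerSumStmt) : PhiStmt := by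
  intro ρ D hρ hρ1 hD
  refine ⟨fun z hz => ?_, fun z hz M hM a b => ?_⟩
  · obtain ⟨M, hzr⟩ := exists_reg hD hz
    exact ((contDiffOn_phi_reg hL hρ hρ1 hD M).contDiffAt
      ((isOpen_reg D M).mem_nhds hzr)).contDiffWithinAt
  have hzr : z ∈ reg D M := by
    have := tl_pos D (M + 1)
    exact show nsq z < _ by linarith
  have hev : phi ρ D =ᶠ[𝓝 z] fun q =>
      (∑ n ∈ Finset.range M, ∑ e ∈ net (tl D (n + 1)), cell ρ D (n + 1) e q)
        + (2 * tl2 D M q).re :=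
    Filter.eventuallyEq_of_mem ((isOpen_reg D M).mem_nhds hzr) fun q hq =>
      phi_eq hL hρ hρ1 hD M hq
  have hd2 := (differentiableOn_tl2 hL hD M).const_mul (2 : ℂ)
  have h2 : (2 : WithTop ℕ∞) ≤ ∞ := WithTop.coe_le_coe.2 le_top
  have hc : ∀ n, ∀ e ∈ net (tl D (n + 1)), ContDiffAt ℝ 2 (cell ρ D (n + 1) e) z := fun n e he =>
    ((contDiffOn_cell hρ hD (net_spec.1 e he)).contDiffAt (isOpen_ball2.mem_nhds hz)).of_le h2
  have hre : ContDiffAt ℝ 2 (fun q => (2 * tl2 D M q).re) z :=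
    ((reCLM.contDiff.comp_contDiffOn (contDiffOn_real (isOpen_reg D M) hd2)).contDiffAt
      ((isOpen_reg D M).mem_nhds hzr)).of_le h2
  rw [Calc.lev_congr hev, Calc.lev_add (ContDiffAt.sum fun n _ => ContDiffAt.sum (hc n)) hre,
    Calc.lev_re (isOpen_reg D M) hd2 hzr, add_zero,
    Calc.lev_sum _ fun n _ => ContDiffAt.sum (hc n)]
  refine Finset.sum_congr rfl fun n _ => ?_
  rw [Calc.lev_sum _ (hc n)]
  exact Finset.sum_congr rfl fun e he => lev_cell hρ hD (net_spec.1 e he) hz a b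

end Vale.Agent.P250.Full.Weight
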