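import Vale.Agent.P250.Full.Calc
import Vale.Agent.P250.Full.Nets

/-!
One cell: the profile, the cell map near the boundary and the Levi form of `gam`; the layer bound.
-/

namespace Vale.Agent.P250.Full.Weight

open Complex Filter Set
open scoped ComplexConjugate Topology ContDiff

variable {ρ t : ℝ}

theorem contDiff_stp (ρ : ℝ) : ContDiff ℝ ∞ (stp ρ) := by
  unfold stp
  exact Real.smoothTransition.contDiff.comp ((contDiff_id.sub contDiff_const).div_const _)

theorem stp_monotone (ρ : ℝ) : Monotone (stp ρ) := by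
  intro x y hxy
  refine Real.smoothTransition.monotone ?_
  gcongr

theorem stp_eq_zero {x : ℝ} (hx : x ≤ ρ ^ 2 / 4) : stp ρ x = 0 :=
  Real.smoothTransition.zero_of_nonpos
    (div_nonpos_of_nonpos_of_nonneg (by linarith) (by positivity))

theorem stp_eq_one (hρ : 0 < ρ) {x : ℝ} (hx : 3 * ρ ^ 2 / 4 ≤ x) : stp ρ x = 1 :=
  Real.smoothTransition.one_of_one_le (by rw [le_div_iff₀ (by positivity)]; linarith)

theorem contDiff_stpDiv (hρ : 0 < ρ) : ContDiff ℝ ∞ fun v => stp ρ v / v := by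
  refine contDiff_iff_contDiffAt.2 fun v => ?_
  rcases eq_or_ne v 0 with rfl | hv
  · refine contDiffAt_const.congr_of_eventuallyEq (f := fun _ => (0 : ℝ)) ?_
    filter_upwards [Iio_mem_nhds (show (0 : ℝ) < ρ ^ 2 / 4 by positivity)] with x hx
    rw [stp_eq_zero (le_of_lt hx), zero_div]
  · exact (contDiff_stp ρ).contDiffAt.div contDiffAt_id hv

theorem hasDerivAt_prof (hρ : 0 < ρ) (x : ℝ) : HasDerivAt (prof ρ) (stp ρ x / x) x := by
  have hc := (contDiff_stpDiv hρ).continuous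
  unfold prof
  simpa using (intervalIntegral.integral_hasDerivAt_left (hc.intervalIntegrable x 1)
    (hc.stronglyMeasurableAtFilter _ _) hc.continuousAt).fun_neg

theorem contDiff_prof (hρ : 0 < ρ) : ContDiff ℝ ∞ (prof ρ) := by
  refine contDiff_infty_iff_deriv.2 ⟨fun x => (hasDerivAt_prof hρ x).differentiableAt, ?_⟩
  rw [funext fun x => (hasDerivAt_prof hρ x).deriv]
  exact contDiff_stpDiv hρ

theorem prof_eq_log (hρ : 0 < ρ) {x : ℝ} (hx : 3 * ρ ^ 2 / 4 ≤ x)
    (hρ1 : 3 * ρ ^ 2 / 4 ≤ 1) : prof ρ x = Real.log x := by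
  have hx0 : 0 < x := lt_of_lt_of_le (by positivity) hx
  have h : ∀ v ∈ Set.uIcc x 1, stp ρ v / v = v⁻¹ := fun v hv => by
    have : 3 * ρ ^ 2 / 4 ≤ v := (le_min hx hρ1).trans hv.1
    rw [stp_eq_one hρ this, one_div]
  rw [prof, intervalIntegral.integral_congr h, integral_inv_of_pos hx0 one_pos, one_div,
    Real.log_inv, neg_neg]

/-- A quarter of the Laplacian of `b ↦ prof ρ (|b|²)`. -/
noncomputable def kap (ρ : ℝ) (b : ℂ) : ℝ := deriv (stp ρ) (normSq b)

theorem kap_nonneg (ρ : ℝ) (b : ℂ) : 0 ≤ kap ρ b := (stp_monotone ρ).deriv_nonneg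

theorem kap_eq_zero (hρ : 0 < ρ) {b : ℂ} (hb : 3 * ρ ^ 2 / 4 < normSq b) : kap ρ b = 0 := by
  have : stp ρ =ᶠ[𝓝 (normSq b)] fun _ => 1 := by
    filter_upwards [Ioi_mem_nhds hb] with x hx
    exact stp_eq_one hρ (le_of_lt hx)
  rw [kap, this.deriv_eq, deriv_const]

theorem contDiff_normSq : ContDiff ℝ ∞ (normSq : ℂ → ℝ) := by
  rw [show (normSq : ℂ → ℝ) = fun z => z.re * z.re + z.im * z.im from funext normSq_apply]
  exact (reCLM.contDiff.mul reCLM.contDiff).add (imCLM.contDiff.mul imCLM.contDiff)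

theorem contDiff_kap (ρ : ℝ) : ContDiff ℝ ∞ (kap ρ) :=
  (contDiff_infty_iff_deriv.1 (contDiff_stp ρ)).2.comp contDiff_normSq

/-- The Levi form of the smoothed logarithm of a holomorphic function. -/
theorem lev_prof (hρ : 0 < ρ) {H : (Fin 2 → ℂ) → ℂ} {U : Set (Fin 2 → ℂ)} (hU : IsOpen U)
    (hH : DifferentiableOn ℂ H U) {z : Fin 2 → ℂ} (hz : z ∈ U) (a b : Fin 2) :
    lev (fun q => prof ρ (normSq (H q))) a b z
      = (kap ρ (H z) : ℂ) * fderiv ℂ H z (Pi.single a 1) * conj (fderiv ℂ H z (Pi.single b 1)) := by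
  set x := normSq (H z) with hx
  have hd : HasDerivAt (fun v => stp ρ v / v) (deriv (fun v => stp ρ v / v) x) x :=
    ((contDiff_stpDiv hρ).differentiable (by simp) x).hasDerivAt
  rw [Calc.lev_radial hU hH hz (Eventually.of_forall (hasDerivAt_prof hρ)) hd]
  congr 3
  have h1 := (hasDerivAt_id x).fun_mul hd
  have h2 : (fun v => id v * (stp ρ v / v)) = stp ρ := by
    funext v
    rcases eq_or_ne v 0 with rfl | hv
    · simp [stp_eq_zero (show (0 : ℝ) ≤ ρ ^ 2 / 4 by positivity)]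
    · simp [mul_div_cancel₀ _ hv]
  rw [h2] at h1
  simpa [kap, ← hx] using h1.deriv.symm

theorem contDiffOn_holo {E : Type*} [NormedAddCommGroup E] [NormedSpace ℂ E]
    [FiniteDimensional ℂ E] {f : (Fin 2 → ℂ) → E} {U : Set (Fin 2 → ℂ)} (hU : IsOpen U)
    (hf : DifferentiableOn ℂ f U) : ContDiffOn ℂ ∞ f U :=
  contDiffOn_infty.2 fun k => P274.Full.PatchAux.contDiffOn_of_holo hU hf k

theorem contDiffOn_real {H : (Fin 2 → ℂ) → ℂ} {U : Set (Fin 2 → ℂ)} (hU : IsOpen U)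
    (hH : DifferentiableOn ℂ H U) : ContDiffOn ℝ ∞ H U :=
  (contDiffOn_holo hU hH).restrict_scalars ℝ

theorem av_pos (ht : 0 < t) (ht1 : t < 1) : 0 < av t :=
  div_pos (by linarith) (by linarith)

theorem one_sub_av (ht : 0 < t) : 1 - av t = 2 * t / (1 + t) := by
  rw [av]; field_simp; ring

theorem one_sub_av_le (ht : 0 < t) : 1 - av t ≤ 2 * t := by
  rw [one_sub_av ht, div_le_iff₀ (by linarith)]; nlinarith

theorem le_one_sub_av (ht : 0 < t) (ht1 : t ≤ 1) : t ≤ 1 - av t := by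
  rw [one_sub_av ht, le_div_iff₀ (by linarith)]; nlinarith

theorem le_norm_den (ht : 0 < t) (ht1 : t < 1) {s : ℂ} (hs : ‖s‖ ≤ 1) :
    t ≤ ‖1 - (av t : ℂ) * s‖ := by
  have h := norm_sub_norm_le (1 : ℂ) ((av t : ℂ) * s)
  rw [norm_one, norm_mul, norm_real, Real.norm_eq_abs, abs_of_pos (av_pos ht ht1)] at h
  nlinarith [le_one_sub_av ht ht1.le, av_pos ht ht1]

theorem den_ne_zero (ht : 0 < t) (ht1 : t < 1) {s : ℂ} (hs : ‖s‖ ≤ 1) :
    1 - (av t : ℂ) * s ≠ 0 :=
  norm_pos_iff.1 (ht.trans_le (le_norm_den ht ht1 hs))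

theorem hasDerivAt_bc (ht : 0 < t) (ht1 : t < 1) {s : ℂ} (hs : ‖s‖ ≤ 1) :
    HasDerivAt (bc t) (((av t : ℂ) ^ 2 - 1) / (1 - (av t : ℂ) * s) ^ 2) s := by
  have h := ((hasDerivAt_id s).const_sub (av t : ℂ)).fun_div
    (((hasDerivAt_id s).const_mul (av t : ℂ)).const_sub 1) (den_ne_zero ht ht1 hs)
  refine (h.congr_deriv ?_).congr_of_eventuallyEq (Eventually.of_forall fun _ => by rfl)
  simp only [id]
  ring

theorem norm_bc_sub_le (ht : 0 < t) (ht1 : t < 1) {s s' : ℂ} (hs : ‖s‖ ≤ 1) (hs' : ‖s'‖ ≤ 1) :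
    ‖bc t s - bc t s'‖ ≤ 4 / t * ‖s - s'‖ := by
  have h1 := den_ne_zero ht ht1 hs
  have h2 := den_ne_zero ht ht1 hs'
  have e : bc t s - bc t s' = ((av t ^ 2 - 1 : ℝ) : ℂ) * (s - s') /
      ((1 - (av t : ℂ) * s) * (1 - (av t : ℂ) * s')) := by
    rw [bc, bc, div_sub_div _ _ h1 h2]
    push_cast
    ring
  have ha := av_pos ht ht1
  have hb : |av t ^ 2 - 1| ≤ 4 * t := by
    rw [abs_le]; constructor <;> nlinarith [one_sub_av_le ht, le_one_sub_av ht ht1.le]
  rw [e, norm_div, norm_mul, norm_mul, norm_real, Real.norm_eq_abs,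
    show 4 / t * ‖s - s'‖ = 4 * t * ‖s - s'‖ / (t * t) by field_simp]
  exact div_le_div₀ (by positivity) (mul_le_mul_of_nonneg_right hb (norm_nonneg _)) (by positivity)
    (mul_le_mul (le_norm_den ht ht1 hs) (le_norm_den ht ht1 hs') ht.le (norm_nonneg _))

theorem near_of_bc_small (ht : 0 < t) (ht1 : t < 1) {s : ℂ} (hs : ‖s‖ ≤ 1)
    (hb : normSq (bc t s) ≤ 1 / 100) : ‖1 - s‖ ≤ 3 * t := by
  set a := (av t : ℂ) with ha
  have hb' : ‖bc t s‖ ≤ 1 / 10 := by
    rw [normSq_eq_norm_sq] at hb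
    nlinarith [norm_nonneg (bc t s)]
  have e1 : bc t s * (1 - a * s) = a - s := div_mul_cancel₀ _ (den_ne_zero ht ht1 hs)
  have e2 : 1 - s = (1 - a) + bc t s * (1 - a * s) := by rw [e1]; ring
  have e3 : 1 - a * s = (1 - a) + a * (1 - s) := by ring
  have hna : ‖(1 : ℂ) - a‖ ≤ 2 * t := by
    rw [ha, ← ofReal_one, ← ofReal_sub, norm_real, Real.norm_eq_abs,
      abs_of_nonneg (ht.le.trans (le_one_sub_av ht ht1.le))]
    exact one_sub_av_le ht
  have ha1 : ‖a‖ ≤ 1 := by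
    rw [ha, norm_real, Real.norm_eq_abs, abs_of_pos (av_pos ht ht1)]
    linarith [le_one_sub_av ht ht1.le]
  have h1 : ‖1 - a * s‖ ≤ 2 * t + ‖1 - s‖ := by
    rw [e3]
    refine (norm_add_le _ _).trans (add_le_add hna ?_)
    rw [norm_mul]
    exact mul_le_of_le_one_left (norm_nonneg _) ha1
  have h2 : ‖1 - s‖ ≤ 2 * t + ‖bc t s‖ * ‖1 - a * s‖ := by
    conv_lhs => rw [e2]
    refine (norm_add_le _ _).trans (add_le_add hna (norm_mul_le _ _))
  nlinarith [mul_le_mul hb' h1 (norm_nonneg _) (by norm_num)]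

theorem norm_ip_sq_le (z e : Fin 2 → ℂ) : ‖ip z e‖ ^ 2 ≤ nsq z * nsq e := by
  have : nsq z * nsq e = ‖ip z e‖ ^ 2 + normSq (z 0 * e 1 - z 1 * e 0) := by
    simp [ip, nsq, Complex.sq_norm, normSq_apply]
    ring
  linarith [normSq_nonneg (z 0 * e 1 - z 1 * e 0)]

theorem norm_ip_le_one {z e : Fin 2 → ℂ} (hz : nsq z ≤ 1) (he : e ∈ sph) : ‖ip z e‖ ≤ 1 :=
  norm_ip_le z e hz (le_of_eq he)

theorem ip_far {z e : Fin 2 → ℂ} (ht : 0 < t) (ht1 : t < 1) (hz : nsq z < 1) (he : e ∈ sph)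
    (h : 8 * t < 1 - nsq z) : 1 / 100 < normSq (bc t (ip z e)) := by
  by_contra hc
  have h3 := near_of_bc_small ht ht1 (norm_ip_le_one hz.le he) (not_lt.1 hc)
  have h4 := norm_sub_norm_le (1 : ℂ) (ip z e)
  rw [norm_one] at h4
  have h5 := norm_ip_sq_le z e
  rw [show nsq e = 1 from he, mul_one] at h5
  nlinarith [norm_nonneg (ip z e), norm_ip_le_one hz.le he]

theorem differentiable_ip (e : Fin 2 → ℂ) : Differentiable ℂ fun z => ip z e := by
  unfold ip; fun_prop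

theorem fderiv_ip (e z : Fin 2 → ℂ) (a : Fin 2) :
    fderiv ℂ (fun q => ip q e) z (Pi.single a 1) = conj (e a) := by
  have h : HasFDerivAt (fun q : Fin 2 → ℂ => ip q e)
      (conj (e 0) • ContinuousLinearMap.proj (R := ℂ) (φ := fun _ : Fin 2 => ℂ) 0
        + conj (e 1) • ContinuousLinearMap.proj (R := ℂ) (φ := fun _ : Fin 2 => ℂ) 1) z :=
    ((hasFDerivAt_apply 0 z).mul_const (conj (e 0))).add
      ((hasFDerivAt_apply 1 z).mul_const (conj (e 1)))
  rw [h.fderiv]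
  fin_cases a <;> simp

theorem isOpen_ball2 : IsOpen ball2 := isOpen_lt continuous_nsq continuous_const

theorem differentiableOn_bc (ht : 0 < t) (ht1 : t < 1) {e : Fin 2 → ℂ} (he : e ∈ sph) :
    DifferentiableOn ℂ (fun z => bc t (ip z e)) ball2 := fun z hz =>
  DifferentiableAt.differentiableWithinAt <|
    DifferentiableAt.comp (g := bc t) (f := fun z => ip z e) z
      (hasDerivAt_bc ht ht1 (norm_ip_le_one (le_of_lt hz) he)).differentiableAt
      (differentiable_ip e z)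

theorem contDiffOn_gam (hρ : 0 < ρ) (ht : 0 < t) (ht1 : t < 1) {e : Fin 2 → ℂ} (he : e ∈ sph) :
    ContDiffOn ℝ ∞ (gam ρ t e) ball2 :=
  ((contDiff_prof hρ).comp contDiff_normSq).comp_contDiffOn
    (contDiffOn_real isOpen_ball2 (differentiableOn_bc ht ht1 he))

theorem contDiffAt_gam (hρ : 0 < ρ) (ht : 0 < t) (ht1 : t < 1) {e z : Fin 2 → ℂ} (he : e ∈ sph)
    (hz : z ∈ ball2) : ContDiffAt ℝ 2 (gam ρ t e) z :=
  ((contDiffOn_gam hρ ht ht1 he).contDiffAt (isOpen_ball2.mem_nhds hz)).of_le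
    (WithTop.coe_le_coe.2 le_top)

theorem lev_gam (hρ : 0 < ρ) (ht : 0 < t) (ht1 : t < 1) {e z : Fin 2 → ℂ} (he : e ∈ sph)
    (hz : z ∈ ball2) (a b : Fin 2) :
    lev (gam ρ t e) a b z = ((kap ρ (bc t (ip z e))
      * normSq (((av t : ℂ) ^ 2 - 1) / (1 - (av t : ℂ) * ip z e) ^ 2) : ℝ) : ℂ)
        * (conj (e a) * e b) := by
  unfold gam
  rw [lev_prof hρ isOpen_ball2 (differentiableOn_bc ht ht1 he) hz]
  have h := (hasDerivAt_bc ht ht1 (norm_ip_le_one (le_of_lt hz) he)).comp_hasFDerivAt z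
    (differentiable_ip e z).hasFDerivAt
  rw [show fderiv ℂ (fun q => bc t (ip q e)) z = _ from h.fderiv]
  simp only [smul_apply, smul_eq_mul, fderiv_ip, map_mul, conj_conj, ofReal_mul]
  rw [normSq_eq_conj_mul_self]
  ring

theorem levQ_gam (hρ : 0 < ρ) (ht : 0 < t) (ht1 : t < 1) {e z : Fin 2 → ℂ} (he : e ∈ sph)
    (hz : z ∈ ball2) (v : Fin 2 → ℂ) :
    levQ (gam ρ t e) z v = kap ρ (bc t (ip z e))
      * normSq (((av t : ℂ) ^ 2 - 1) / (1 - (av t : ℂ) * ip z e) ^ 2) * normSq (ip v e) := by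
  simp only [levQ, lev_gam hρ ht ht1 he hz]
  generalize kap ρ (bc t (ip z e))
    * normSq (((av t : ℂ) ^ 2 - 1) / (1 - (av t : ℂ) * ip z e) ^ 2) = c
  rw [← ofReal_re (c * normSq (ip v e))]
  congr 1
  rw [ofReal_mul, ← mul_conj]
  simp only [ip, Fin.sum_univ_two, map_add, map_mul, conj_conj]
  ring

theorem net_spec {t : ℝ} : (∀ e ∈ net t, e ∈ sph) ∧
    ∀ e ∈ net t, ∀ e' ∈ net t, e ≠ e' → 1000 * t ≤ ‖1 - ip e e'‖ := by
  unfold net
  split_ifs with h
  · exact ⟨h.choose_spec.1, h.choose_spec.2.1⟩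
  · simp

theorem net_unique (ht : 0 < t) {z e e' : Fin 2 → ℂ} (hz : nsq z ≤ 1) (he : e ∈ net t)
    (he' : e' ∈ net t) (h : ‖1 - ip z e‖ ≤ 8 * t) (h' : ‖1 - ip z e'‖ ≤ 8 * t) : e = e' := by
  by_contra hne
  have h1 := net_spec.2 e he e' he' hne
  have h2 := triangle e z e' (le_of_eq (net_spec.1 e he)) hz (le_of_eq (net_spec.1 e' he'))
  rw [norm_one_sub_ip_comm e z] at h2
  have h3 := h2.trans (add_le_add (Real.sqrt_le_sqrt h) (Real.sqrt_le_sqrt h'))
  rw [Real.sqrt_le_left (by positivity)] at h3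
  nlinarith [Real.sq_sqrt (show (0 : ℝ) ≤ 8 * t by positivity)]

theorem norm_sub_sq_le {z e : Fin 2 → ℂ} (hz : nsq z ≤ 1) (he : e ∈ sph) :
    nsq (z - e) ≤ 2 * ‖1 - ip z e‖ := by
  have h1 : nsq (z - e) = nsq z + nsq e - 2 * (ip z e).re := by
    simp [nsq, ip, normSq_apply]; ring
  rw [h1, show nsq e = 1 from he]
  have := (1 - ip z e).re_le_norm
  simp at this
  linarith

theorem kap_bound (hρ : 0 < ρ) : ∃ M : ℝ, 0 < M ∧ ∀ b, kap ρ b ≤ M := by
  obtain ⟨M, hM⟩ := ((isCompact_closedBall (0 : ℂ) ρ).image (contDiff_kap ρ).continuous).bddAbove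
  refine ⟨max M 1, by positivity, fun b => ?_⟩
  by_cases hb : ‖b‖ ≤ ρ
  · exact (hM ⟨b, mem_closedBall_zero_iff.2 hb, rfl⟩).trans (le_max_left _ _)
  · rw [kap_eq_zero hρ (by rw [normSq_eq_norm_sq]; nlinarith [not_le.1 hb])]
    positivity

/-- A layer has a small Levi form away from its depth. -/
theorem layer : LayerStmt := by
  intro ρ hρ hρ1
  obtain ⟨M, hM, hkM⟩ := kap_bound hρ
  refine ⟨256 * M, by positivity, fun t ht ht1 z hz v => ?_⟩
  have ht' : t < 1 := by linarith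
  have hρ2 : 3 * ρ ^ 2 / 4 ≤ 1 / 100 := by nlinarith
  have hpos : ∀ e ∈ sph, 0 ≤ levQ (gam ρ t e) z v := fun e he => by
    rw [levQ_gam hρ ht ht' he hz]
    exact mul_nonneg (mul_nonneg (kap_nonneg _ _) (normSq_nonneg _)) (normSq_nonneg _)
  refine ⟨hpos, fun hfar => Finset.sum_eq_zero fun e he => ?_, ?_⟩
  · have he1 := net_spec.1 e he
    rw [levQ_gam hρ ht ht' he1 hz,
      kap_eq_zero hρ (hρ2.trans_lt (ip_far ht ht' hz he1 hfar)), zero_mul, zero_mul]
  have hB : 0 ≤ 256 * M * (normSq (ip v z) / t ^ 2 + nsq v / t) := by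
    have := normSq_nonneg (ip v z)
    have : 0 ≤ nsq v := add_nonneg (normSq_nonneg _) (normSq_nonneg _)
    positivity
  by_cases hex : ∃ e ∈ net t, normSq (bc t (ip z e)) ≤ 1 / 100
  · obtain ⟨e, he, hb⟩ := hex
    have he1 := net_spec.1 e he
    have hz1 : nsq z ≤ 1 := le_of_lt hz
    have hs := norm_ip_le_one hz1 he1
    have hn := near_of_bc_small ht ht' hs hb
    rw [Finset.sum_eq_single e (fun e' he' hne => ?_) (fun h => absurd he h)]
    · rw [levQ_gam hρ ht ht' he1 hz]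
      have h1 : normSq (((av t : ℂ) ^ 2 - 1) / (1 - (av t : ℂ) * ip z e) ^ 2) ≤ (4 / t) ^ 2 := by
        rw [normSq_eq_norm_sq]
        gcongr
        rw [norm_div, norm_pow, ← ofReal_pow, ← ofReal_one, ← ofReal_sub, norm_real,
          Real.norm_eq_abs, ofReal_one, show (4 : ℝ) / t = 4 * t / t ^ 2 by field_simp]
        gcongr
        · have := av_pos ht ht'
          rw [abs_le]; constructor <;> nlinarith [one_sub_av_le ht, le_one_sub_av ht ht'.le]
        · exact le_norm_den ht ht' hs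
      have h2 : normSq (ip v e) ≤ 2 * normSq (ip v z) + 16 * t * nsq v := by
        have hs2 := norm_sub_sq_le hz1 he1
        have hc := norm_ip_sq_le v (z - e)
        have hd : ip v e = ip v z - ip v (z - e) := by simp [ip]; ring
        have hv : 0 ≤ nsq v := add_nonneg (normSq_nonneg _) (normSq_nonneg _)
        rw [normSq_eq_norm_sq, normSq_eq_norm_sq, hd]
        nlinarith [norm_sub_le (ip v z) (ip v (z - e)), norm_nonneg (ip v z - ip v (z - e)),
          sq_nonneg (‖ip v z‖ - ‖ip v (z - e)‖), mul_le_mul_of_nonneg_left hn hv,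
          mul_le_mul_of_nonneg_left hs2 hv]
      calc kap ρ (bc t (ip z e))
            * normSq (((av t : ℂ) ^ 2 - 1) / (1 - (av t : ℂ) * ip z e) ^ 2) * normSq (ip v e)
          ≤ M * (4 / t) ^ 2 * (2 * normSq (ip v z) + 16 * t * nsq v) := by
            have := normSq_nonneg (ip v e)
            exact mul_le_mul (mul_le_mul (hkM _) h1 (normSq_nonneg _) hM.le) h2 this (by positivity)
        _ ≤ 256 * M * (normSq (ip v z) / t ^ 2 + nsq v / t) := by
            have h0 : 0 ≤ M * (normSq (ip v z) / t ^ 2) :=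
              mul_nonneg hM.le (div_nonneg (normSq_nonneg _) (sq_nonneg t))
            have e1 : M * (4 / t) ^ 2 * (2 * normSq (ip v z) + 16 * t * nsq v)
                = 32 * (M * (normSq (ip v z) / t ^ 2)) + 256 * M * (nsq v / t) := by
              field_simp; ring
            rw [e1, mul_add]
            nlinarith
    · have he'1 := net_spec.1 e' he'
      by_cases hb' : normSq (bc t (ip z e')) ≤ 1 / 100
      · have hn' := near_of_bc_small ht ht' (norm_ip_le_one hz1 he'1) hb'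
        exact absurd (net_unique ht hz1 he' he (by linarith) (by linarith)) hne
      · rw [levQ_gam hρ ht ht' he'1 hz, kap_eq_zero hρ (hρ2.trans_lt (not_le.1 hb')), zero_mul,
          zero_mul]
  · simp only [not_exists, not_and, not_le] at hex
    rw [Finset.sum_eq_zero fun e he => ?_]
    · exact hB
    · rw [levQ_gam hρ ht ht' (net_spec.1 e he) hz,
        kap_eq_zero hρ (hρ2.trans_lt (hex e he)), zero_mul, zero_mul]

end Vale.Agent.P250.Full.Weight
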